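import Vale.Agent.P295.Strong

open Vale.Agent.P295 in
theorem Vale.Agent.Results.P295.AllDimensions.result :
    (∀ n : ℕ, 4 ≤ n → ∃ f : MvPolynomial (Fin n) ℂ, IsStableCoordinateOf 1 f ∧ ¬ IsCoordinate f) ∧
      IsStableCoordinateOf 1 quintic ∧
      ∀ c : ℂ, ¬ IsCoordinate (quintic - MvPolynomial.C c) ∧
        Nonempty ((MvPolynomial (Fin 4) ℂ ⧸ Ideal.span {quintic - MvPolynomial.C c}) ≃ₐ[ℂ]
          MvPolynomial (Fin 3) ℂ) :=
  ⟨all_dim, Four.isStable, fun c =>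
    ⟨fun h => Four.not_isCoordinate (isCoordinate_of_sub_C c h), Four.fibre c⟩⟩
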